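import Mathlib.LinearAlgebra.Matrix.AbsoluteValue
import Mathlib.LinearAlgebra.Matrix.Block
import Mathlib.LinearAlgebra.Matrix.ToLinearEquiv
import Mathlib.Data.Real.Basic
import Mathlib.Tactic

/-!
# P106 / U / H731 : determinant of successive non-degenerate directions (block NON)
-/

set_option autoImplicit false
set_option linter.all false

namespace Vale.Agent.P106.U.H731

open Finset Matrix

/-- covectors `p k` orthogonal to `v j`, `j < k`, large on `v k` ⇒ lower bound for the determinant -/
theorem det_succ {d : ℕ} (v p : Fin d → Fin d → ℝ) (δ : ℝ) (hδ : 0 ≤ δ)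
    (hp : ∀ k l, |p k l| ≤ 1) (horth : ∀ k j, j < k → ∑ l, p k l * v j l = 0)
    (hbig : ∀ k, δ ≤ |∑ l, p k l * v k l|) :
    δ ^ d ≤ (d.factorial : ℝ) * |(Matrix.of v).det| := by
  set M : Matrix (Fin d) (Fin d) ℝ := Matrix.of p * (Matrix.of v)ᵀ with hM
  have hMe : ∀ k j, M k j = ∑ l, p k l * v j l := by
    intro k j
    simp [hM, Matrix.mul_apply]
  have h1 : M.det = ∏ k, M k k := by
    apply Matrix.det_of_upperTriangular
    intro k j hkj
    rw [hMe]
    exact horth k j hkj
  have h2 : M.det = (Matrix.of p).det * (Matrix.of v).det := by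
    rw [hM, Matrix.det_mul, Matrix.det_transpose]
  have h3 : δ ^ d ≤ |M.det| := by
    rw [h1, Finset.abs_prod]
    calc δ ^ d = ∏ _k : Fin d, δ := by simp
      _ ≤ ∏ k, |M k k| := Finset.prod_le_prod (fun _ _ => hδ) fun k _ => by
          rw [hMe]; exact hbig k
  have h4 : |(Matrix.of p).det| ≤ (d.factorial : ℝ) := by
    have := Matrix.det_le (A := Matrix.of p) (abv := AbsoluteValue.abs) (x := (1 : ℝ))
      (fun i j => by simpa using hp i j)
    simpa using this
  rw [h2, abs_mul] at h3
  exact h3.trans (mul_le_mul_of_nonneg_right h4 (abs_nonneg _))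

/-- a covector of sup norm one (attained at `l0`) orthogonal to the first `k` vectors -/
theorem exists_cov {d : ℕ} (k : Fin d) (v : Fin d → Fin d → ℝ) :
    ∃ (p : Fin d → ℝ) (l0 : Fin d), p l0 = 1 ∧ (∀ l, |p l| ≤ 1) ∧
      ∀ j, j < k → ∑ l, p l * v j l = 0 := by
  classical
  -- the matrix of the vectors `v j`, `j < k`, completed by zero rows
  let A : Matrix (Fin d) (Fin d) ℝ := Matrix.of fun j l => if j < k then v j l else 0
  have hA : A.det = 0 := by
    apply Matrix.det_eq_zero_of_row_eq_zero k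
    intro l
    simp [A]
  obtain ⟨q, hq0, hq⟩ := Matrix.exists_mulVec_eq_zero_iff.2 hA
  obtain ⟨l0, -, hl0⟩ := Finset.exists_max_image (Finset.univ : Finset (Fin d)) (fun l => |q l|)
    ⟨k, Finset.mem_univ k⟩
  have hpos : 0 < |q l0| := by
    by_contra h
    apply hq0
    funext l
    have h1 := hl0 l (Finset.mem_univ l)
    have h2 : |q l| ≤ 0 := h1.trans (not_lt.1 h)
    exact abs_eq_zero.1 (le_antisymm h2 (abs_nonneg _))
  have hne : q l0 ≠ 0 := abs_pos.1 hpos
  refine ⟨fun l => q l / q l0, l0, div_self hne, fun l => ?_, fun j hj => ?_⟩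
  · rw [abs_div, div_le_one hpos]
    exact hl0 l (Finset.mem_univ l)
  · have h1 := congrFun hq j
    simp only [Matrix.mulVec, dotProduct, A, Matrix.of_apply, hj, if_true, Pi.zero_apply] at h1
    have h2 : ∑ l, q l / q l0 * v j l = (∑ l, v j l * q l) / q l0 := by
      rw [Finset.sum_div]
      exact Finset.sum_congr rfl fun l _ => by ring
    rw [h2, h1, zero_div]

end Vale.Agent.P106.U.H731
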